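import Mathlib.RingTheory.MvPowerSeries.Derivative
import Mathlib.LinearAlgebra.BilinearForm.Orthogonal
import Mathlib.LinearAlgebra.Dimension.Constructions
import Mathlib.LinearAlgebra.StdBasis
import Mathlib.RingTheory.Localization.FractionRing
import Mathlib.Data.Real.Basic
import Mathlib.Tactic.LinearCombination
import Mathlib.Tactic.Linarith

/-!
# P054 / T3, block V: a formal family with maximal isotropic tangent space is null

`braid`: `x : (Fin N ⊕ Fin N) → R[[t_1, .., t_D]]` with isotropic derivatives spanning a space of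
dimension `≥ N` over a field extension.  Then `Q(x - x(0)) = 0`, `Q(a) = ∑ a_i a'_i`.
-/

set_option autoImplicit false

open Module

namespace Vale.Agent.P054.T3.H794

section form

variable {N : ℕ}

/-- the symmetric bilinear form `∑ (a_i b'_i + a'_i b_i)` over a commutative ring -/
def BR {R : Type*} [CommRing R] (a b : Fin N ⊕ Fin N → R) : R :=
  ∑ i, (a (Sum.inl i) * b (Sum.inr i) + a (Sum.inr i) * b (Sum.inl i))

theorem BR_comm {R : Type*} [CommRing R] (a b : Fin N ⊕ Fin N → R) : BR a b = BR b a := by
  unfold BR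
  exact Finset.sum_congr rfl fun i _ => by ring

theorem map_BR {R S : Type*} [CommRing R] [CommRing S] (φ : R →+* S) (a b : Fin N ⊕ Fin N → R) :
    φ (BR a b) = BR (fun y => φ (a y)) (fun y => φ (b y)) := by
  unfold BR
  rw [map_sum]
  exact Finset.sum_congr rfl fun i _ => by rw [map_add, map_mul, map_mul]

theorem der_BR {R : Type*} [CommRing R] {A : Type*} [CommRing A] [Algebra A R]
    (δ : Derivation A R R) (a b : Fin N ⊕ Fin N → R) :
    δ (BR a b) = BR (fun y => δ (a y)) b + BR a (fun y => δ (b y)) := by
  unfold BR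
  rw [map_sum, ← Finset.sum_add_distrib]
  refine Finset.sum_congr rfl fun i _ => ?_
  rw [map_add, Derivation.leibniz, Derivation.leibniz]
  simp only [smul_eq_mul]
  ring

/-- the form over a field -/
noncomputable def BK (K : Type*) [Field K] (N : ℕ) : LinearMap.BilinForm K (Fin N ⊕ Fin N → K) :=
  LinearMap.mk₂ K (fun a b => BR a b)
    (fun a a' b => by
      unfold BR
      rw [← Finset.sum_add_distrib]
      exact Finset.sum_congr rfl fun i _ => by simp only [Pi.add_apply]; ring)
    (fun c a b => by
      unfold BR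
      rw [smul_eq_mul, Finset.mul_sum]
      exact Finset.sum_congr rfl fun i _ => by simp only [Pi.smul_apply, smul_eq_mul]; ring)
    (fun a b b' => by
      unfold BR
      rw [← Finset.sum_add_distrib]
      exact Finset.sum_congr rfl fun i _ => by simp only [Pi.add_apply]; ring)
    (fun c a b => by
      unfold BR
      rw [smul_eq_mul, Finset.mul_sum]
      exact Finset.sum_congr rfl fun i _ => by simp only [Pi.smul_apply, smul_eq_mul]; ring)

variable {K : Type*} [Field K]

theorem BK_apply (a b : Fin N ⊕ Fin N → K) : BK K N a b = BR a b := rfl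

theorem BK_sep (a : Fin N ⊕ Fin N → K) (h : ∀ b, BK K N a b = 0) : a = 0 := by
  classical
  funext y
  rcases y with i | i
  · have h1 := h (Pi.single (Sum.inr i) 1)
    rw [BK_apply] at h1
    unfold BR at h1
    rw [Finset.sum_eq_single i] at h1
    · simpa using h1
    · intro j _ hj
      have e1 : (Pi.single (Sum.inr i) (1 : K) : Fin N ⊕ Fin N → K) (Sum.inr j) = 0 :=
        Pi.single_eq_of_ne (fun h => hj (Sum.inr_injective h)) _
      have e2 : (Pi.single (Sum.inr i) (1 : K) : Fin N ⊕ Fin N → K) (Sum.inl j) = 0 :=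
        Pi.single_eq_of_ne (by simp) _
      rw [e1, e2]; ring
    · intro hi
      exact absurd (Finset.mem_univ i) hi
  · have h1 := h (Pi.single (Sum.inl i) 1)
    rw [BK_apply] at h1
    unfold BR at h1
    rw [Finset.sum_eq_single i] at h1
    · simpa using h1
    · intro j _ hj
      have e1 : (Pi.single (Sum.inl i) (1 : K) : Fin N ⊕ Fin N → K) (Sum.inl j) = 0 :=
        Pi.single_eq_of_ne (fun h => hj (Sum.inl_injective h)) _
      have e2 : (Pi.single (Sum.inl i) (1 : K) : Fin N ⊕ Fin N → K) (Sum.inr j) = 0 :=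
        Pi.single_eq_of_ne (by simp) _
      rw [e1, e2]; ring
    · intro hi
      exact absurd (Finset.mem_univ i) hi

/-- an isotropic subspace of dimension `≥ N` is its own orthogonal -/
theorem mem_of_orth {T : Submodule K (Fin N ⊕ Fin N → K)}
    (hT : ∀ a ∈ T, ∀ b ∈ T, BK K N a b = 0) (hd : N ≤ finrank K T)
    {w : Fin N ⊕ Fin N → K} (hw : ∀ b ∈ T, BK K N b w = 0) : w ∈ T := by
  have hle : T ≤ (BK K N).orthogonal T := by
    intro b hb
    rw [LinearMap.BilinForm.mem_orthogonal_iff]
    intro a ha
    exact hT a ha b hb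
  have h1 := LinearMap.BilinForm.finrank_add_finrank_orthogonal' (B := BK K N) T
  have hker : (BK K N).ker = ⊥ := by
    rw [LinearMap.ker_eq_bot']
    intro a ha
    exact BK_sep a fun b => by rw [ha]; rfl
  rw [hker, inf_bot_eq, finrank_bot, add_zero, finrank_fintype_fun_eq_card, Fintype.card_sum,
    Fintype.card_fin] at h1
  have heq : T = (BK K N).orthogonal T :=
    Submodule.eq_of_le_of_finrank_le hle (by omega)
  rw [heq, LinearMap.BilinForm.mem_orthogonal_iff]
  intro b hb
  exact hw b hb

end form

section iter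

variable {R : Type*} [CommRing R] {N : ℕ} {M A : Type*} [CommRing A] [Algebra A R]

/-- the iterated derivatives of order `≥ 1` -/
inductive It (δ : M → Derivation A R R) (x : Fin N ⊕ Fin N → R) : (Fin N ⊕ Fin N → R) → Prop
  | base (m : M) : It δ x (fun y => δ m (x y))
  | step (k : M) (w : Fin N ⊕ Fin N → R) : It δ x w → It δ x (fun y => δ k (w y))

variable {K : Type*} [Field K] (φ : R →+* K)

/-- **all iterated derivatives are orthogonal to each other** -/
theorem it_orth (hφ : Function.Injective φ) (h2 : (2 : K) ≠ 0) (δ : M → Derivation A R R)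
    (hcomm : ∀ k m f, δ k (δ m f) = δ m (δ k f)) (x : Fin N ⊕ Fin N → R)
    (hiso : ∀ m l, BR (fun y => δ m (x y)) (fun y => δ l (x y)) = 0)
    (hrank : N ≤ finrank K (Submodule.span K (Set.range fun m : M => fun y => φ (δ m (x y)))))
    {w w' : Fin N ⊕ Fin N → R} (hw : It δ x w) (hw' : It δ x w') : BR w w' = 0 := by
  set T : Submodule K (Fin N ⊕ Fin N → K) :=
    Submodule.span K (Set.range fun m : M => fun y => φ (δ m (x y))) with hT
  -- `T` is isotropic
  have hTiso : ∀ a ∈ T, ∀ b ∈ T, BK K N a b = 0 := by
    intro a ha b hb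
    refine Submodule.span_induction (p := fun a _ => BK K N a b = 0) ?_ ?_ ?_ ?_ ha
    · rintro _ ⟨m, rfl⟩
      refine Submodule.span_induction (p := fun b _ =>
        BK K N (fun y => φ (δ m (x y))) b = 0) ?_ ?_ ?_ ?_ hb
      · rintro _ ⟨l, rfl⟩
        show BR (fun y => φ (δ m (x y))) (fun y => φ (δ l (x y))) = 0
        rw [← map_BR φ, hiso, map_zero]
      · rw [map_zero]
      · intro u v _ _ hu hv
        rw [map_add, hu, hv, add_zero]
      · intro c u _ hu
        rw [map_smul, hu, smul_zero]
    · rw [map_zero, LinearMap.zero_apply]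
    · intro u v _ _ hu hv
      rw [map_add, LinearMap.add_apply, hu, hv, add_zero]
    · intro c u _ hu
      rw [map_smul, LinearMap.smul_apply, hu, smul_zero]
  -- criterion
  have hcrit : ∀ u : Fin N ⊕ Fin N → R, (∀ l, BR (fun y => δ l (x y)) u = 0) →
      (fun y => φ (u y)) ∈ T := by
    intro u hu
    refine mem_of_orth hTiso hrank ?_
    intro b hb
    refine Submodule.span_induction (p := fun b _ => BK K N b (fun y => φ (u y)) = 0)
      ?_ ?_ ?_ ?_ hb
    · rintro _ ⟨l, rfl⟩
      show BR (fun y => φ (δ l (x y))) (fun y => φ (u y)) = 0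
      rw [← map_BR φ, hu, map_zero]
    · rw [map_zero, LinearMap.zero_apply]
    · intro u v _ _ hu hv
      rw [map_add, LinearMap.add_apply, hu, hv, add_zero]
    · intro c u _ hu
      rw [map_smul, LinearMap.smul_apply, hu, smul_zero]
  have hzero : ∀ u v : Fin N ⊕ Fin N → R, (fun y => φ (u y)) ∈ T → (fun y => φ (v y)) ∈ T →
      BR u v = 0 := by
    intro u v hu hv
    apply hφ
    rw [map_BR φ, map_zero]
    exact hTiso _ hu _ hv
  -- second derivatives: the braid argument
  have hsec : ∀ k m l, BR (fun y => δ k (δ m (x y))) (fun y => δ l (x y)) = 0 := by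
    have hs : ∀ k m l, BR (fun y => δ k (δ m (x y))) (fun y => δ l (x y)) =
        BR (fun y => δ m (δ k (x y))) (fun y => δ l (x y)) := by
      intro k m l
      have : (fun y => δ k (δ m (x y))) = fun y => δ m (δ k (x y)) := by
        funext y
        exact hcomm k m (x y)
      rw [this]
    have ha : ∀ k m l, BR (fun y => δ k (δ m (x y))) (fun y => δ l (x y)) =
        - BR (fun y => δ k (δ l (x y))) (fun y => δ m (x y)) := by
      intro k m l
      have h1 := der_BR (δ k) (fun y => δ m (x y)) (fun y => δ l (x y))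
      rw [hiso, map_zero] at h1
      rw [BR_comm (fun y => δ m (x y)) (fun y => δ k (δ l (x y)))] at h1
      linear_combination -h1
    intro k m l
    have e1 := ha k m l
    have e2 := hs k l m
    have e3 := ha l k m
    have e4 := hs l m k
    have e5 := ha m l k
    have e6 := hs m k l
    have h3 : 2 * BR (fun y => δ k (δ m (x y))) (fun y => δ l (x y)) = 0 := by
      linear_combination e1 - e2 - e3 + e4 + e5 - e6
    apply hφ
    rw [map_zero]
    have h4 := congrArg φ h3
    rw [map_mul, map_zero, map_ofNat] at h4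
    exact (mul_eq_zero.1 h4).resolve_left h2
  have hmem2 : ∀ k m, (fun y => φ (δ k (δ m (x y)))) ∈ T := by
    intro k m
    refine hcrit _ fun l => ?_
    rw [BR_comm]
    exact hsec k m l
  -- all iterated derivatives are in `T`
  have hmem : ∀ u, It δ x u → (fun y => φ (u y)) ∈ T := by
    intro u hu
    induction hu with
    | base m => exact Submodule.subset_span ⟨m, rfl⟩
    | step k u _ ih =>
      refine hcrit _ fun l => ?_
      have h1 : BR (fun y => δ l (x y)) u = 0 :=
        hzero _ _ (Submodule.subset_span ⟨l, rfl⟩) ih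
      have h3 := der_BR (δ k) (fun y => δ l (x y)) u
      rw [h1, map_zero, hzero _ _ (hmem2 k l) ih, zero_add] at h3
      exact h3.symm
  exact hzero _ _ (hmem w hw) (hmem w' hw')

end iter

section series

/-- a set of power series closed under derivatives, without constant terms, is zero -/
theorem eq_zero_of_closed {σ : Type*} (S : Set (MvPowerSeries σ ℝ))
    (h0 : ∀ f ∈ S, MvPowerSeries.constantCoeff f = 0)
    (hS : ∀ f ∈ S, ∀ k, MvPowerSeries.pderiv ℝ k f ∈ S) : ∀ f ∈ S, f = 0 := by
  classical
  have key : ∀ d : ℕ, ∀ f ∈ S, ∀ m : σ →₀ ℕ, m.degree = d → MvPowerSeries.coeff m f = 0 := by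
    intro d
    induction d with
    | zero =>
      intro f hf m hm
      rw [Finsupp.degree_eq_zero_iff] at hm
      subst hm
      rw [MvPowerSeries.coeff_zero_eq_constantCoeff]
      exact h0 f hf
    | succ d ih =>
      intro f hf m hm
      have hne : m ≠ 0 := by
        rintro rfl
        simp at hm
      obtain ⟨i, hi⟩ := Finsupp.ne_iff.1 hne
      have hi' : m i ≠ 0 := hi
      have hle : Finsupp.single i 1 ≤ m := by
        rw [Finsupp.single_le_iff]
        omega
      have hm' : m = (m - Finsupp.single i 1) + Finsupp.single i 1 := by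
        rw [tsub_add_cancel_of_le hle]
      have hdeg : (m - Finsupp.single i 1).degree = d := by
        have h1 : m.degree = (m - Finsupp.single i 1).degree + 1 := by
          conv_lhs => rw [hm']
          rw [map_add, Finsupp.degree_single]
        omega
      have h1 := ih _ (hS f hf i) (m - Finsupp.single i 1) hdeg
      rw [MvPowerSeries.coeff_pderiv, ← hm'] at h1
      refine (mul_eq_zero.1 h1).resolve_right ?_
      positivity
  intro f hf
  ext m
  rw [map_zero]
  exact key _ f hf m rfl

open MvPowerSeries in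
/-- **braid**: a formal family with isotropic tangent space of dimension `≥ N` is null. -/
theorem braid_gen {D N : ℕ} {K : Type*} [Field K] (φ : MvPowerSeries (Fin D) ℝ →+* K)
    (hφ : Function.Injective φ) (x : Fin N ⊕ Fin N → MvPowerSeries (Fin D) ℝ)
    (hiso : ∀ m l, BR (fun y => pderiv ℝ m (x y)) (fun y => pderiv ℝ l (x y)) = 0)
    (hrank : N ≤ finrank K (Submodule.span K
      (Set.range fun m : Fin D => fun y => φ (pderiv ℝ m (x y))))) :
    ∑ i, (x (Sum.inl i) - C (constantCoeff (x (Sum.inl i)))) *
      (x (Sum.inr i) - C (constantCoeff (x (Sum.inr i)))) = 0 := by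
  have h2 : (2 : K) ≠ 0 := by
    have h3 : φ (2 : MvPowerSeries (Fin D) ℝ) = 2 := map_ofNat φ 2
    rw [← h3]
    intro h4
    have h5 : (2 : MvPowerSeries (Fin D) ℝ) = 0 := hφ (by rw [h4, map_zero])
    have h6 := congrArg (constantCoeff (σ := Fin D) (R := ℝ)) h5
    rw [map_zero, map_ofNat] at h6
    norm_num at h6
  have hcomm : ∀ (k m : Fin D) (f : MvPowerSeries (Fin D) ℝ),
      pderiv ℝ k (pderiv ℝ m f) = pderiv ℝ m (pderiv ℝ k f) := by
    intro k m f
    ext d
    simp only [coeff_pderiv]
    by_cases hkm : k = m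
    · subst hkm; rfl
    · have e1 : (d + Finsupp.single k 1 : Fin D →₀ ℕ) m = d m := by
        rw [Finsupp.add_apply, Finsupp.single_eq_of_ne (Ne.symm hkm), add_zero]
      have e2 : (d + Finsupp.single m 1 : Fin D →₀ ℕ) k = d k := by
        rw [Finsupp.add_apply, Finsupp.single_eq_of_ne hkm, add_zero]
      rw [e1, e2, add_right_comm]
      ring
  set y : Fin N ⊕ Fin N → MvPowerSeries (Fin D) ℝ := fun a => x a - C (constantCoeff (x a))
    with hy
  have hy0 : ∀ a, constantCoeff (y a) = 0 := by
    intro a
    rw [hy]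
    simp
  have hdy : ∀ (k : Fin D) a, pderiv ℝ k (y a) = pderiv ℝ k (x a) := by
    intro k a
    rw [hy]
    simp
  have horth := fun {w w'} (hw : It (fun m : Fin D => pderiv ℝ m) x w) hw' =>
    it_orth φ hφ h2 (fun m : Fin D => pderiv ℝ m) hcomm x hiso hrank (w' := w') hw hw'
  -- first step
  have h1 : ∀ w, It (fun m : Fin D => pderiv ℝ m) x w → BR w y = 0 := by
    have := eq_zero_of_closed
      {f | ∃ w, It (fun m : Fin D => pderiv ℝ m) x w ∧ BR w y = f}
      (by
        rintro _ ⟨w, -, rfl⟩
        rw [map_BR]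
        unfold BR
        exact Finset.sum_eq_zero fun i _ => by
          show _ * constantCoeff (y (Sum.inr i)) + _ * constantCoeff (y (Sum.inl i)) = 0
          rw [hy0, hy0, mul_zero, mul_zero, add_zero])
      (by
        rintro _ ⟨w, hw, rfl⟩ k
        refine ⟨_, It.step k w hw, ?_⟩
        rw [der_BR]
        have h3 : BR w (fun a => pderiv ℝ k (y a)) = 0 := by
          have h4 : (fun a => pderiv ℝ k (y a)) = fun a => pderiv ℝ k (x a) := by
            funext a
            exact hdy k a
          rw [h4]
          exact horth hw (It.base k)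
        rw [h3, add_zero])
    intro w hw
    exact this _ ⟨w, hw, rfl⟩
  -- the function `Q (y)`
  have h3 : ∀ k : Fin D, pderiv ℝ k (∑ i, y (Sum.inl i) * y (Sum.inr i)) = 0 := by
    intro k
    have h4 := h1 _ (It.base k)
    rw [map_sum, ← h4]
    unfold BR
    refine Finset.sum_congr rfl fun i _ => ?_
    rw [Derivation.leibniz, smul_eq_mul, smul_eq_mul, hdy, hdy]
    ring
  have h4 : ∑ i, y (Sum.inl i) * y (Sum.inr i) = 0 := by
    refine pderiv.ext (fun k => ?_) ?_
    · rw [h3 k, map_zero]
    · rw [map_sum, map_zero]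
      exact Finset.sum_eq_zero fun i _ => by rw [map_mul, hy0, zero_mul]
  exact h4

open MvPowerSeries in
/-- **braid**, in the form needed for the vertical case of Lemma V -/
theorem braid {D n : ℕ} {K : Type*} [Field K] [Algebra (MvPowerSeries (Fin D) ℝ) K]
    [IsFractionRing (MvPowerSeries (Fin D) ℝ) K]
    (x : Fin (n + 1) ⊕ Fin (n + 1) → MvPowerSeries (Fin D) ℝ)
    (hiso : ∀ m l, ∑ i, (pderiv ℝ m (x (Sum.inl i)) * pderiv ℝ l (x (Sum.inr i)) +
      pderiv ℝ l (x (Sum.inl i)) * pderiv ℝ m (x (Sum.inr i))) = 0)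
    (hrank : n + 1 ≤ finrank K (Submodule.span K
      (Set.range fun m : Fin D => fun y => algebraMap _ K (pderiv ℝ m (x y))))) :
    ∑ i, (x (Sum.inl i) - C (constantCoeff (x (Sum.inl i)))) *
      (x (Sum.inr i) - C (constantCoeff (x (Sum.inr i)))) = 0 := by
  refine braid_gen (algebraMap (MvPowerSeries (Fin D) ℝ) K) (IsFractionRing.injective _ K) x
    (fun m l => ?_) hrank
  rw [← hiso m l]
  unfold BR
  exact Finset.sum_congr rfl fun i _ => by ring

end series

end Vale.Agent.P054.T3.H794
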