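import Vale.Agent.P054.T3.H794.VCount
import Vale.Agent.P054.T2.H84.BadSide
import Vale.Agent.P054.T3.H955.LowMain

/-!
# P054 / T3, block V: glue

`HData.lemmaV_of` : Lemma V from the two remaining inputs (`LOW` in vertical dimension `0`, the
analysis of the vertical case).
-/

set_option autoImplicit false

namespace Vale.Agent.P054.T3.H794

open Vale.Agent.P054I Vale.Agent.P054K
open Vale.Agent.P054.T2 Vale.Agent.P054.T2.H686 Vale.Agent.P054.T2.SecC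
open Vale.Agent.P054.T2.H84 (Sg mem_Sg)

variable {n : ℕ}

/-- pairwise null points of `P × P` : at most `|P|` -/
theorem card_null_le (P : Finset (E n)) (B : E n ≃ₗᵢ[ℝ] E n) (S : Finset (ZZ n))
    (hS : S ⊆ Sg P B) (hnull : ∀ z ∈ S, ∀ z' ∈ S, Qf (z - z') = 0) : S.card ≤ P.card := by
  classical
  have hex : ∀ z ∈ S, ∃ s ∈ P ×ˢ P, zt B s = z := fun z hz => mem_Sg.1 (hS hz)
  choose! g hg using hex
  refine Finset.card_le_card_of_injOn (fun z => (g z).1) ?_ ?_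
  · intro z hz
    exact (Finset.mem_product.1 (hg z hz).1).1
  · intro z hz z' hz' h
    have h1 := hnull z hz z' hz'
    rw [← (hg z hz).2, ← (hg z' hz').2, Qf_zt_sub_eq_zero] at h1
    have h2 : (g z).1 = (g z').1 := h
    rw [h2, dist_self] at h1
    have h3 : (g z).2 = (g z').2 := dist_eq_zero.1 h1.symm
    rw [← (hg z hz).2, ← (hg z' hz').2, Prod.ext h2 h3]

/-- the constant of Lemma V -/
def CV (n : ℕ) : ℕ := max (Cv (2 * n + 1) (2 * n + 2)) (Cq (2 * n + 1) (2 * n + 2))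

end Vale.Agent.P054.T3.H794

namespace Vale.Agent.P054.T3.H955.HData

open MvPolynomial Finset Module
open Vale.Agent.P054I Vale.Agent.P054K
open Vale.Agent.P054.T2 Vale.Agent.P054.T2.H686 Vale.Agent.P054.T2.SecC
open Vale.Agent.P054.T2.H580 (Vw hilbF rkF IsFilt wh)
open Vale.Agent.P054.T2.H930 (germ mx grad J Pt hatPt)
open Vale.Agent.P054.T2.H441 (hF rkY)
open Vale.Agent.P054.T2.H84 (Sg mem_Sg sep_Sg)
open Vale.Agent.P054.T2.H588 (mat mat_orth KK pv)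
open Vale.Agent.P054.T2.H431 (constF mem_constF)
open Vale.Agent.P054.T3.H794

variable {n : ℕ} {E0 E1 E2 : Finset (ZZ n × ZZ n)} {W D N c₀ c₁ : ℕ}
  (H : HData n E0 E1 E2 (wh (Crd n) (Pt n) W) N c₀ c₁)

include H in
/-- at most `2 n + 2` vertical equations -/
theorem c₁_le_ind (hne : E2.Nonempty) : c₁ ≤ 2 * n + 2 := by
  obtain ⟨e, he⟩ := hne
  have := (H.h_ind e he).fintype_card_le_finrank
  rw [Module.finrank_fintype_fun_eq_card, Fintype.card_fin, card_Pt] at this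
  exact this

include H in
/-- **Lemma V** from `LOW` and the vertical case -/
theorem lemmaV_of (hW : 1 ≤ W) (hD : 1 ≤ D)
    (hh : ∀ j, H.h j ∈ Vw ℝ (wh (Crd n) (Pt n) W) (D * W))
    (T : Fin c₀ → ℕ) (hT1 : ∀ j, 1 ≤ T j) (hT : ∀ j, (H.f j).totalDegree ≤ T j)
    (P : Finset (E n)) (B : E n ≃ₗᵢ[ℝ] E n) {t : ℕ} (ht : (dists P).card ≤ t)
    (hSg : E2.image Prod.fst ⊆ Sg P B)
    (hlow : c₁ = 2 * n + 2 → ∀ e ∈ E2, ∃ a₀ : ℕ, ∀ m M : ℕ,
      (M + n).choose n * hF (H.Ps e) m ≤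
        hilbF (Vw ℝ (wh (Crd n) (Pt n) W)) (H.P e) (M + m + a₀))
    (hvert : c₁ < 2 * n + 2 → c₀ = 1 ∧
      ∀ e ∈ E2, ∀ e' ∈ E2, H.P e' = H.P e → Qf (e'.1 - e.1) = 0) :
    (E2.image Prod.fst).card ≤
      CV n * D ^ (2 * n + 2) * (∏ j, T j) * (4 * t + 1) ^ (n + 1 - c₀) ∨
    (c₀ = 1 ∧ (E2.image Prod.fst).card ≤ CV n * D ^ (2 * n + 2) * (∏ j, T j) * P.card) := by
  classical
  rcases E2.eq_empty_or_nonempty with h0 | hne
  · subst h0
    left
    simp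
  have hc₁ := H.c₁_le_ind hne
  rcases Nat.lt_or_ge c₁ (2 * n + 2) with hlt | hge
  · right
    obtain ⟨hc₀, hv⟩ := hvert hlt
    refine ⟨hc₀, ?_⟩
    refine (H.card_fst_le_small hW hD hc₁ hh T hT1 hT (g := P.card) ?_).trans ?_
    · intro e he S hS hSP
      refine card_null_le P B (S.image Prod.fst) ?_ ?_
      · exact (Finset.image_subset_image hS).trans hSg
      · intro z hz z' hz'
        obtain ⟨a, ha, rfl⟩ := Finset.mem_image.1 hz
        obtain ⟨a', ha', rfl⟩ := Finset.mem_image.1 hz'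
        exact hv a' (hS ha') a (hS ha) (by rw [hSP a ha, hSP a' ha'])
    · have h1 : D ^ c₁ ≤ D ^ (2 * n + 2) := Nat.pow_le_pow_right hD hc₁
      have h2 : Cq (2 * n + 1) (2 * n + 2) ≤ CV n := le_max_right _ _
      gcongr
  · left
    have hc : c₁ = 2 * n + 2 := le_antisymm hc₁ hge
    refine (H.card_fst_le hW hD hc hh T hT1 hT (Ns := 4 * t)
      ((sep_Sg P B _ hSg).mono_deg (Nat.mul_le_mul_left _ ht)) (hlow hc)).trans ?_
    have h2 : Cv (2 * n + 1) (2 * n + 2) ≤ CV n := le_max_left _ _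
    gcongr

section low

variable {k : Type*} [CommRing k] [Algebra k ℝ]

include H in
/-- **Lemma V** up to the vertical case: `hvert` is the statement of helper161's block V3 -/
theorem lemmaV_of_vert (hW : 1 ≤ W) (hD : 1 ≤ D) (hc₀ : 1 ≤ c₀)
    (hh : ∀ j, H.h j ∈ Vw ℝ (wh (Crd n) (Pt n) W) (D * W))
    (T : Fin c₀ → ℕ) (hT1 : ∀ j, 1 ≤ T j) (hT : ∀ j, (H.f j).totalDegree ≤ T j)
    (P : Finset (E n)) (B : E n ≃ₗᵢ[ℝ] E n) {t : ℕ} (ht : (dists P).card ≤ t)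
    (hSg : E2.image Prod.fst ⊆ Sg P B)
    (hgen : ∀ O : Matrix (Fin (n + 1)) (Fin (n + 1)) ℝ, O.transpose = -O →
      ∃ D : Derivation k ℝ ℝ, ∀ i j, D (mat B i j) = (mat B * O) i j)
    (hpt : ∀ e' ∈ E1, ∃ s : E n × E n, e'.1 = zt B s ∧ KK (constF k ℝ) s)
    (hvert : c₁ < 2 * n + 2 → c₀ = 1 ∧
      ∀ e ∈ E2, ∀ e' ∈ E2, H.P e' = H.P e → Qf (e'.1 - e.1) = 0) :
    (E2.image Prod.fst).card ≤
      CV n * D ^ (2 * n + 2) * (∏ j, T j) * (4 * t + 1) ^ (n + 1 - c₀) ∨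
    (c₀ = 1 ∧ (E2.image Prod.fst).card ≤ CV n * D ^ (2 * n + 2) * (∏ j, T j) * P.card) := by
  refine H.lemmaV_of hW hD hh T hT1 hT P B ht hSg (fun hc e he => ?_) hvert
  obtain ⟨A, hA⟩ := H.low (k := k) he hW (fun _ => rfl) (fun _ => rfl) hc₀ hc B hgen hpt
  exact ⟨W * A, fun m M => (hA M m).trans (le_of_eq (by rw [add_assoc]))⟩

end low

end Vale.Agent.P054.T3.H955.HData
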