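import Vale.Agent.P054.T2.H269.GermSum
import Vale.Agent.P054.T2.H701.GoodSide
import Vale.Agent.P054.T2.H395.Comap
import Vale.Agent.P054.T2.H580.Hat

/-!
# P054 / T3, block V, part (5): the count of the first end points

Abstract form over index types `α` (weight `1`) and `β` (weight `W`).

`Φ = (Φ₀, Φ₁)`: `c₀` equations in the `α`-variables with levels `d i`, `c₁` equations of level
`D * W`.  `v + c₁ = card β`, `s + c₀ = card α`.

* `hat_up` : `W^v * hilbF (⨅ germs) m ≤ C * D^c₁ * ∏ d * (m + W)^(s + v)`;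
* `hat_low` : lower bound of the weighted Hilbert function of one germ prime;
* `hat_card_classes` : number of germ primes `≤ C * D^c₁ * ∏ d`;
* `jets_inr` : jets in the `β`-variables;
* `vcount` : the count.
-/

set_option autoImplicit false

namespace Vale.Agent.P054.T3.H794

open MvPolynomial Finset Module
open Vale.Agent.P054.T2
open Vale.Agent.P054.T2.H580 (Vw hilbF rkF IsFilt wh)
open Vale.Agent.P054.T2.H930 (germ mx grad J)
open Vale.Agent.P054.T2.H441 (hF rkY)

variable {K : Type*} [Field K] {α β : Type*} [Fintype α] [DecidableEq α] [Fintype β]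
  [DecidableEq β]

section basic

omit [Fintype α] [DecidableEq α] [Fintype β] [DecidableEq β] in
theorem wh_ne {W : ℕ} (hW : 1 ≤ W) (i : α ⊕ β) : wh α β W i ≠ 0 := by
  rcases i with i | i
  · simp [wh]
  · simp only [wh, Sum.elim_inr]; omega

omit [DecidableEq α] [DecidableEq β] in
theorem isFilt_wh {W : ℕ} (hW : 1 ≤ W) : IsFilt (Vw K (wh α β W)) :=
  H580.isFilt_Vw _ (wh_ne hW)

omit [Fintype α] [DecidableEq α] [Fintype β] [DecidableEq β] in
theorem X_mem_wh {W : ℕ} (hW : 1 ≤ W) (i : α ⊕ β) :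
    (X i : MvPolynomial (α ⊕ β) K) ∈ Vw K (wh α β W) W := by
  refine H580.Vw_mono (wh α β W) ?_ (H580.X_mem_Vw (wh α β W) i)
  rcases i with i | i
  · simpa [wh] using hW
  · simp [wh]

/-- the constant of the upper bound -/
def Cu (a b : ℕ) : ℕ := (a + b + 1) ^ (a + b)

theorem one_le_Cu (a b : ℕ) : 1 ≤ Cu a b := Nat.one_le_pow _ _ (by omega)

/-- **weighted upper bound** with the product of the levels of the first block -/
theorem hat_up {W D c₀ c₁ s v : ℕ} (hW : 1 ≤ W) (hD : 1 ≤ D) {ι : Type*} (G : Finset ι)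
    (x : ι → α ⊕ β → K) (Φ : Fin (c₀ + c₁) → MvPolynomial (α ⊕ β) K)
    (hz : ∀ i ∈ G, ∀ j, eval (x i) (Φ j) = 0)
    (hind : ∀ i ∈ G, LinearIndependent K (fun j => grad (x i) (Φ j)))
    (d : Fin c₀ → ℕ) (hd1 : ∀ j, 1 ≤ d j)
    (hd : ∀ j, Φ (Fin.castAdd c₁ j) ∈ Vw K (wh α β W) (d j))
    (hd' : ∀ j, Φ (Fin.natAdd c₀ j) ∈ Vw K (wh α β W) (D * W))
    (hs : s + c₀ = Fintype.card α) (hv : v + c₁ = Fintype.card β) (m : ℕ) :
    W ^ v * hilbF (Vw K (wh α β W)) (⨅ i ∈ G, germ (x i) Φ) m ≤
      Cu (Fintype.card α) (Fintype.card β) * D ^ c₁ * (∏ j, d j) * (m + W) ^ (s + v) := by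
  classical
  set a := Fintype.card α with ha
  set b := Fintype.card β with hb
  have hV := isFilt_wh (K := K) (α := α) (β := β) hW
  have h1 := H269.hilbF_germs_le hV G x Φ hz hind
    (Fin.append d (fun _ => D * W))
    (fun j => by
      refine Fin.addCases (fun i => ?_) (fun i => ?_) j
      · rw [Fin.append_left]; exact hd1 i
      · rw [Fin.append_right]; exact Nat.mul_pos hD hW)
    (fun j => by
      refine Fin.addCases (fun i => ?_) (fun i => ?_) j
      · rw [Fin.append_left]; exact hd i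
      · rw [Fin.append_right]; exact hd' i)
    m (m + W - 1)
  have hprod : ∏ j, (Fin.append d (fun _ => D * W) : Fin (c₀ + c₁) → ℕ) j =
      (∏ j, d j) * (D * W) ^ c₁ := by
    rw [Fin.prod_univ_add]
    simp [Fin.append_left, Fin.append_right]
  rw [hprod] at h1
  have hT : m + W - 1 + 1 = m + W := by omega
  rw [hT] at h1
  have hHgen : hilbF (Vw K (wh α β W)) (⨅ i ∈ G, germ (x i) Φ) m =
    hilbF (Vw K (wh α β W)) (⨅ i ∈ G, germ (x i) Φ) m := rfl
  generalize hilbF (Vw K (wh α β W)) (⨅ i ∈ G, germ (x i) Φ) m = H at h1 hHgen ⊢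
  clear hHgen
  obtain ⟨c, hc⟩ : ∃ c, c = c₀ + c₁ := ⟨_, rfl⟩
  rw [← hc] at h1
  set N : ℕ := m + c * (m + W - 1) with hN
  have hKn : c + 1 ≤ a + b + 1 := by omega
  -- dimension of the weighted space
  have h2 : finrank K (Vw K (wh α β W) N) ≤ (N + 1) ^ a * (N / W + 1) ^ b := by
    refine (H580.finrank_Vw_le _ (wh_ne hW) N).trans (le_of_eq ?_)
    rw [Fintype.prod_sum_type]
    simp only [wh, Sum.elim_inl, Sum.elim_inr, Nat.div_one, Finset.prod_const, Finset.card_univ]
    rw [← ha, ← hb]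
  have hN1 : N + 1 ≤ (a + b + 1) * (m + W) := by
    have : N + 1 ≤ (c + 1) * (m + W) := by
      have h3 : c * (m + W - 1) ≤ c * (m + W) := Nat.mul_le_mul_left _ (by omega)
      have h4 : (c + 1) * (m + W) = c * (m + W) + (m + W) := by ring
      omega
    exact this.trans (Nat.mul_le_mul_right _ hKn)
  have hN2 : W * (N / W + 1) ≤ (a + b + 1) * (m + W) := by
    have h3 : W * (N / W) ≤ N := Nat.mul_div_le N W
    have h5 : W * (N / W + 1) ≤ N + W := by
      have : W * (N / W + 1) = W * (N / W) + W := by ring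
      omega
    have : N + W ≤ (c + 1) * (m + W) := by
      rcases Nat.eq_zero_or_pos c with h0 | h0
      · have : N = m := by rw [hN, h0]; ring
        rw [this, h0]; omega
      · have h6 : c * (m + W - 1) + c = c * (m + W) := by
          have : m + W - 1 + 1 = m + W := hT
          calc c * (m + W - 1) + c = c * (m + W - 1 + 1) := by ring
            _ = _ := by rw [this]
        have h4 : (c + 1) * (m + W) = c * (m + W) + (m + W) := by ring
        omega
    exact h5.trans (this.trans (Nat.mul_le_mul_right _ hKn))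
  set X : ℕ := m + W with hX
  set pd : ℕ := ∏ j, d j with hpd
  have hXpos : 0 < X := by omega
  have hcab : c + (s + v) = a + b := by omega
  have h3 : W ^ b * (X ^ c * H) ≤
      pd * (D * W) ^ c₁ * ((a + b + 1) * X) ^ (a + b) := by
    calc W ^ b * (X ^ c * H)
        ≤ W ^ b * (pd * (D * W) ^ c₁ * ((N + 1) ^ a * (N / W + 1) ^ b)) :=
          Nat.mul_le_mul_left _ (h1.trans (Nat.mul_le_mul_left _ h2))
      _ = pd * (D * W) ^ c₁ * ((N + 1) ^ a * (W * (N / W + 1)) ^ b) := by
          rw [mul_pow W (N / W + 1)]; ring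
      _ ≤ pd * (D * W) ^ c₁ * (((a + b + 1) * X) ^ a * ((a + b + 1) * X) ^ b) := by gcongr
      _ = _ := by rw [← pow_add]
  have h4 : (W ^ c₁ * X ^ c) * (W ^ v * H) ≤
      (W ^ c₁ * X ^ c) * (Cu a b * D ^ c₁ * pd * X ^ (s + v)) := by
    calc (W ^ c₁ * X ^ c) * (W ^ v * H)
        = W ^ b * (X ^ c * H) := by
          have : W ^ b = W ^ c₁ * W ^ v := by
            rw [← pow_add]; congr 1; omega
          rw [this]; ring
      _ ≤ _ := h3
      _ = pd * (D ^ c₁ * W ^ c₁) * ((a + b + 1) ^ (a + b) * (X ^ c * X ^ (s + v))) := by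
          rw [mul_pow D W, mul_pow (a + b + 1) X, ← pow_add X, hcab]
      _ = _ := by
          unfold Cu
          ring
  have hpos : 0 < W ^ c₁ * X ^ c := by positivity
  exact Nat.le_of_mul_le_mul_left h4 hpos

omit [Fintype α] [DecidableEq α] [Fintype β] [DecidableEq β] in
theorem rename_lform_mem {τ ρ : Type*} [Fintype τ] [DecidableEq τ] (w : ρ → ℕ) (g : τ → ρ)
    (N : ℕ) (hw : ∀ i, w (g i) ≤ N) (p a : τ → K) : rename g (H269.lform p a) ∈ Vw K w N := by
  unfold H269.lform
  rw [map_sum]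
  refine Submodule.sum_mem _ fun j _ => ?_
  rw [map_mul, rename_C, map_sub, rename_X, rename_C]
  have h1 : (X (g j) - C (p j) : MvPolynomial ρ K) ∈ Vw K w N :=
    Submodule.sub_mem _ (H580.Vw_mono w (hw j) (H580.X_mem_Vw w (g j))) (H580.C_mem_Vw w _ _)
  have h2 := H580.mul_mem_Vw w (H580.C_mem_Vw w (a j) 0) h1
  rwa [Nat.zero_add] at h2

end basic

section low

/-- **lower bound** for one germ prime: `s` directions of level `1`, `v` of level `W` -/
theorem hat_low {W c₀ c₁ s v : ℕ} (hW : 1 ≤ W) (p : α ⊕ β → K)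
    (f : Fin c₀ → MvPolynomial α K) (Φ : Fin (c₀ + c₁) → MvPolynomial (α ⊕ β) K)
    (hleft : ∀ i, Φ (Fin.castAdd c₁ i) = rename Sum.inl (f i))
    (hz : ∀ j, eval p (Φ j) = 0)
    (hindf : LinearIndependent K (fun i => grad (fun y => p (Sum.inl y)) (f i)))
    (hindr : LinearIndependent K
      (fun (j : Fin c₁) (z : β) => eval p (pderiv (Sum.inr z) (Φ (Fin.natAdd c₀ j)))))
    (hs : s + c₀ = Fintype.card α) (hv : v + c₁ = Fintype.card β) (a b : ℕ) :
    (a + 1) ^ s * (b + 1) ^ v ≤ hilbF (Vw K (wh α β W)) (germ p Φ) (s * a + v * (b * W)) := by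
  classical
  have hV := isFilt_wh (K := K) (α := α) (β := β) hW
  set pl : α → K := fun y => p (Sum.inl y) with hpl
  set pr : β → K := fun y => p (Sum.inr y) with hpr
  have hp : p = Sum.elim pl pr := by
    funext y
    rcases y with y | y <;> rfl
  obtain ⟨au, hau⟩ := H269.exists_complete (e := s) (fun i => grad pl (f i)) hindf
    (by rw [← hs]; ring)
  obtain ⟨ar, har⟩ := H269.exists_complete (e := v) (fun (j : Fin c₁) (z : β) =>
      eval p (pderiv (Sum.inr z) (Φ (Fin.natAdd c₀ j)))) hindr (by rw [← hv]; ring)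
  set x : Fin (s + v) → MvPolynomial (α ⊕ β) K :=
    Fin.append (fun l => rename Sum.inl (H269.lform pl (au l)))
      (fun l => rename Sum.inr (H269.lform pr (ar l))) with hx
  have hgrl : ∀ g : MvPolynomial α K, grad p (rename Sum.inl g) =
      Sum.elim (grad pl g) (0 : β → K) := fun g => H395.grad_rename_inl p g
  have hgl : ∀ l, grad p (rename Sum.inl (H269.lform pl (au l))) =
      Sum.elim (au l) (0 : β → K) := by
    intro l
    rw [hgrl]
    congr 1
    exact H269.grad_lform _ _ _
  have hgr : ∀ l, grad p (rename Sum.inr (H269.lform pr (ar l))) =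
      Sum.elim (0 : α → K) (ar l) := by
    intro l
    funext z
    rcases z with z | z
    · simp only [H930.grad, Sum.elim_inl, Pi.zero_apply]
      have h : pderiv (Sum.inl z : α ⊕ β) (rename Sum.inr (H269.lform pr (ar l))) = 0 := by
        apply pderiv_eq_zero_of_notMem_vars
        intro hx
        have := vars_rename _ _ hx
        simp at this
      rw [h, map_zero]
    · simp only [H930.grad, Sum.elim_inr]
      rw [pderiv_rename Sum.inr_injective, eval_rename]
      exact congrFun (H269.grad_lform pr (ar l) pr) z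
  have hgf : ∀ i, grad p (Φ (Fin.castAdd _ i)) =
      Sum.elim (grad pl (f i)) (0 : β → K) := by
    intro i
    rw [hleft, hgrl]
  -- the block triangular family
  have hblock := H269.linInd_block (Sum.elim (fun i => grad pl (f i)) au)
    (Sum.elim (fun (j : Fin c₁) (z : β) =>
      eval p (pderiv (Sum.inr z) (Φ (Fin.natAdd c₀ j)))) ar)
    (Sum.elim (fun (j : Fin c₁) (z : α) =>
      eval p (pderiv (Sum.inl z) (Φ (Fin.natAdd c₀ j)))) (fun _ => 0))
    hau har
  let ε : ((Fin c₀ ⊕ Fin s) ⊕ (Fin c₁ ⊕ Fin v)) ≃ Fin ((c₀ + c₁) + (s + v)) :=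
    (Equiv.sumSumSumComm _ _ _ _).trans
      ((Equiv.sumCongr finSumFinEquiv finSumFinEquiv).trans finSumFinEquiv)
  have hind : LinearIndependent K (fun j => grad p (Fin.append Φ x j)) := by
    rw [← linearIndependent_equiv ε]
    set blk := Sum.elim (fun i => (Sum.elim ((Sum.elim (fun i => grad pl (f i)) au) i)
        (0 : β → K) : α ⊕ β → K))
      (fun j => (Sum.elim ((Sum.elim (fun (j : Fin c₁) (z : α) =>
        eval p (pderiv (Sum.inl z) (Φ (Fin.natAdd c₀ j)))) (fun _ => 0)) j)
        ((Sum.elim (fun (j : Fin c₁) (z : β) =>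
          eval p (pderiv (Sum.inr z) (Φ (Fin.natAdd c₀ j)))) ar) j)
        : α ⊕ β → K)) with hblk
    suffices hfun : ((fun j => grad p (Fin.append Φ x j)) ∘ ε) = blk by
      rw [hfun]; exact hblock
    funext j
    rcases j with (i | l) | (j | l)
    · show grad p (Fin.append Φ x (ε (Sum.inl (Sum.inl i)))) = _
      have : ε (Sum.inl (Sum.inl i)) = Fin.castAdd _ (Fin.castAdd _ i) := rfl
      rw [this, Fin.append_left, hgf]
      rfl
    · show grad p (Fin.append Φ x (ε (Sum.inl (Sum.inr l)))) = _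
      have : ε (Sum.inl (Sum.inr l)) = Fin.natAdd _ (Fin.castAdd _ l) := rfl
      rw [this, Fin.append_right, hx, Fin.append_left, hgl]
      rfl
    · show grad p (Fin.append Φ x (ε (Sum.inr (Sum.inl j)))) = _
      have : ε (Sum.inr (Sum.inl j)) = Fin.castAdd _ (Fin.natAdd _ j) := rfl
      rw [this, Fin.append_left]
      funext z
      rcases z with z | z <;> rfl
    · show grad p (Fin.append Φ x (ε (Sum.inr (Sum.inr l)))) = _
      have : ε (Sum.inr (Sum.inr l)) = Fin.natAdd _ (Fin.natAdd _ l) := rfl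
      rw [this, Fin.append_right, hx, Fin.append_right, hgr]
      rfl
  have h1 := H269.le_hilbF_germ hV p Φ x hz
    (fun l => by
      refine Fin.addCases (fun i => ?_) (fun i => ?_) l
      · rw [hx, Fin.append_left, eval_rename]
        exact H269.eval_lform _ _
      · rw [hx, Fin.append_right, eval_rename]
        exact H269.eval_lform _ _)
    hind (Fin.append (fun _ => 1) (fun _ => W))
    (fun l => by
      refine Fin.addCases (fun i => ?_) (fun i => ?_) l
      · rw [hx, Fin.append_left, Fin.append_left]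
        exact rename_lform_mem _ _ _ (fun i => by simp [wh]) _ _
      · rw [hx, Fin.append_right, Fin.append_right]
        exact rename_lform_mem _ _ _ (fun i => by simp [wh]) _ _)
    (Fin.append (fun _ => a) (fun _ => b))
  have h2 : ∏ l, ((Fin.append (fun _ => a) (fun _ => b) : Fin (s + v) → ℕ) l + 1) =
      (a + 1) ^ s * (b + 1) ^ v := by
    rw [Fin.prod_univ_add]
    simp [Fin.append_left, Fin.append_right]
  have h3 : ∑ l, (Fin.append (fun _ => a) (fun _ => b) : Fin (s + v) → ℕ) l *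
      (Fin.append (fun _ => 1) (fun _ => W) : Fin (s + v) → ℕ) l = s * a + v * (b * W) := by
    rw [Fin.sum_univ_add]
    simp [Fin.append_left, Fin.append_right]
  rw [h2, h3] at h1
  exact h1

/-- the constant of the number of classes -/
def Cq (a b : ℕ) : ℕ := Cu a b * (a + b) ^ (a + b)

open Classical in
/-- **number of germ primes** of one hat system (any vertical dimension) -/
theorem hat_card_classes {W D c₀ c₁ s v : ℕ} (hW : 1 ≤ W) (hD : 1 ≤ D) {ι : Type*}
    (G : Finset ι) (x : ι → α ⊕ β → K)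
    (f : Fin c₀ → MvPolynomial α K) (Φ : Fin (c₀ + c₁) → MvPolynomial (α ⊕ β) K)
    (hleft : ∀ i, Φ (Fin.castAdd c₁ i) = rename Sum.inl (f i))
    (hz : ∀ i ∈ G, ∀ j, eval (x i) (Φ j) = 0)
    (hind : ∀ i ∈ G, LinearIndependent K (fun j => grad (x i) (Φ j)))
    (hindf : ∀ i ∈ G, LinearIndependent K (fun j => grad (fun y => x i (Sum.inl y)) (f j)))
    (hindr : ∀ i ∈ G, LinearIndependent K
      (fun (j : Fin c₁) (z : β) => eval (x i) (pderiv (Sum.inr z) (Φ (Fin.natAdd c₀ j)))))
    (d : Fin c₀ → ℕ) (hd1 : ∀ j, 1 ≤ d j) (hd : ∀ j, (f j).totalDegree ≤ d j)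
    (hd' : ∀ j, Φ (Fin.natAdd c₀ j) ∈ Vw K (wh α β W) (D * W))
    (hs : s + c₀ = Fintype.card α) (hv : v + c₁ = Fintype.card β) :
    (G.image fun i => germ (x i) Φ).card ≤
      Cq (Fintype.card α) (Fintype.card β) * D ^ c₁ * ∏ j, d j := by
  have hV := isFilt_wh (K := K) (α := α) (β := β) hW
  have hdd : ∀ j, Φ (Fin.castAdd c₁ j) ∈ Vw K (wh α β W) (d j) := fun j => by
    rw [hleft]
    exact H580.rename_mem_Vw_of_total _ Sum.inl (fun i => rfl)
      ((mem_restrictTotalDegree _ _ _).2 (hd j))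
  set a' := Fintype.card α with ha'
  set b' := Fintype.card β with hb'
  obtain ⟨a, ha⟩ := H269.germs_additive hV (X_mem_wh hW) G x Φ hz hind
  set Q := G.image (fun i => germ (x i) Φ) with hQ
  set pd : ℕ := ∏ j, d j with hpd
  have key : ∀ k : ℕ, (Q.card * W ^ (s + v)) * (k + 1) ^ (s + v) ≤
      (Cu a' b' * D ^ c₁ * pd) * ((k + 1) * ((s + v) * W) + (a + W)) ^ (s + v) := by
    intro k
    have h1 : ∀ q ∈ Q, (W * (k + 1)) ^ s * (k + 1) ^ v ≤
        hilbF (Vw K (wh α β W)) q ((k + 1) * ((s + v) * W)) := by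
      intro q hq
      obtain ⟨i, hi, rfl⟩ := Finset.mem_image.1 hq
      have h2 := hat_low hW (x i) f Φ hleft (hz i hi) (hindf i hi) (hindr i hi) hs hv
        (W * (k + 1) - 1) k
      have h3 : 0 < W * (k + 1) := by positivity
      have h4 : W * (k + 1) - 1 + 1 = W * (k + 1) := by omega
      rw [h4] at h2
      refine h2.trans (hV.hilbF_mono _ ?_)
      have h5 : s * (W * (k + 1) - 1) ≤ s * (W * (k + 1)) := Nat.mul_le_mul_left _ (by omega)
      have h6 : v * (k * W) ≤ v * (W * (k + 1)) := by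
        apply Nat.mul_le_mul_left
        nlinarith
      calc s * (W * (k + 1) - 1) + v * (k * W) ≤ s * (W * (k + 1)) + v * (W * (k + 1)) :=
            Nat.add_le_add h5 h6
        _ = _ := by ring
    have h2 : Q.card * ((W * (k + 1)) ^ s * (k + 1) ^ v) ≤
        hilbF (Vw K (wh α β W)) (⨅ i ∈ G, germ (x i) Φ) ((k + 1) * ((s + v) * W) + a) := by
      refine le_trans ?_ (ha _)
      rw [← smul_eq_mul, ← Finset.sum_const]
      exact Finset.sum_le_sum h1
    have h3 := hat_up hW hD G x Φ hz hind d hd1 hdd hd' hs hv ((k + 1) * ((s + v) * W) + a)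
    calc (Q.card * W ^ (s + v)) * (k + 1) ^ (s + v)
        = W ^ v * (Q.card * ((W * (k + 1)) ^ s * (k + 1) ^ v)) := by
          rw [mul_pow, pow_add, pow_add]; ring
      _ ≤ W ^ v * hilbF (Vw K (wh α β W)) (⨅ i ∈ G, germ (x i) Φ)
            ((k + 1) * ((s + v) * W) + a) := Nat.mul_le_mul_left _ h2
      _ ≤ _ := h3
      _ = _ := by rw [add_assoc]
  have h1 := H269.lim_pow key
  have h2 : Q.card * W ^ (s + v) ≤
      (Cu a' b' * D ^ c₁ * pd * (s + v) ^ (s + v)) * W ^ (s + v) := by
    refine h1.trans (le_of_eq ?_)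
    rw [mul_pow]; ring
  have h3 := Nat.le_of_mul_le_mul_right h2 (by positivity)
  refine h3.trans ?_
  have h4 : (s + v) ^ (s + v) ≤ (a' + b') ^ (a' + b') := by
    rcases Nat.eq_zero_or_pos (a' + b') with h0 | h0
    · have : s + v = 0 := by omega
      rw [this, h0]
    · calc (s + v) ^ (s + v) ≤ (a' + b') ^ (s + v) := Nat.pow_le_pow_left (by omega) _
        _ ≤ _ := Nat.pow_le_pow_right h0 (by omega)
  unfold Cq
  calc Cu a' b' * D ^ c₁ * pd * (s + v) ^ (s + v)
      ≤ Cu a' b' * D ^ c₁ * pd * (a' + b') ^ (a' + b') := Nat.mul_le_mul_left _ h4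
    _ = _ := by ring

end low

section jets

/-- `β`-coordinates which are independent modulo the gradients -/
theorem exists_inr_indep {c ρ j : ℕ} (G : Fin c → (α ⊕ β → K)) (hG : LinearIndependent K G)
    (hρ : ρ ≤ (Matrix.of fun (i : Fin c) (y : α) => G i (Sum.inl y)).rank)
    (hj : j + c = Fintype.card β + ρ) :
    ∃ x : Fin j → β, LinearIndependent K
      (Sum.elim (fun l => Pi.single (Sum.inr (x l)) (1 : K)) G :
        Fin j ⊕ Fin c → (α ⊕ β → K)) := by
  classical
  set M : Matrix (Fin c) α K := Matrix.of fun (i : Fin c) (y : α) => G i (Sum.inl y) with hM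
  let U : Submodule K (α ⊕ β → K) := Submodule.span K (Set.range G)
  let E : (β → K) →ₗ[K] (α ⊕ β → K) :=
    { toFun := fun w => Sum.elim 0 w
      map_add' := fun w w' => by funext z; rcases z with z | z <;> simp
      map_smul' := fun a w => by funext z; rcases z with z | z <;> simp }
  let T : (β → K) →ₗ[K] ((α ⊕ β → K) ⧸ U) := U.mkQ.comp E
  -- the kernel
  let A : (Fin c → K) →ₗ[K] (α → K) := M.transpose.mulVecLin
  have hrkA : finrank K (LinearMap.range A) = M.rank := by
    rw [← Matrix.rank_transpose]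
    rfl
  have hkerA := LinearMap.finrank_range_add_finrank_ker A
  rw [hrkA, finrank_fintype_fun_eq_card, Fintype.card_fin] at hkerA
  let L : (Fin c → K) →ₗ[K] (α ⊕ β → K) := Fintype.linearCombination K G
  have hL : ∀ a, L a = ∑ i, a i • G i := fun a => rfl
  let R : (α ⊕ β → K) →ₗ[K] (β → K) := LinearMap.funLeft K K Sum.inr
  have hker : LinearMap.ker T ≤ (LinearMap.ker A).map (R.comp L) := by
    intro w hw
    have h1 : E w ∈ U := by
      have h2 : U.mkQ (E w) = 0 := hw
      rwa [Submodule.mkQ_apply, Submodule.Quotient.mk_eq_zero] at h2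
    obtain ⟨a, ha⟩ := (Submodule.mem_span_range_iff_exists_fun K).1 h1
    refine ⟨a, ?_, ?_⟩
    · show A a = 0
      funext y
      have h2 := congrFun ha (Sum.inl y)
      rw [Finset.sum_apply] at h2
      have h3 : (E w) (Sum.inl y) = 0 := rfl
      rw [h3] at h2
      show (M.transpose.mulVec a) y = 0
      rw [← h2]
      simp only [Matrix.mulVec, dotProduct, Matrix.transpose_apply, Pi.smul_apply, smul_eq_mul]
      exact Finset.sum_congr rfl fun i _ => by rw [hM, Matrix.of_apply]; ring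
    · show R (L a) = w
      rw [hL, ha]
      rfl
  have hkerT : finrank K (LinearMap.ker T) ≤ c - M.rank := by
    refine (Submodule.finrank_mono hker).trans ?_
    refine (Submodule.finrank_map_le _ _).trans ?_
    omega
  have hrT := LinearMap.finrank_range_add_finrank_ker T
  rw [finrank_fintype_fun_eq_card] at hrT
  have hMc : M.rank ≤ c := by
    have := M.rank_le_card_height
    simpa using this
  have hjT : j ≤ finrank K (LinearMap.range T) := by omega
  -- a basis among the images of the unit vectors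
  let B : β → ((α ⊕ β → K) ⧸ U) := fun z => Submodule.Quotient.mk (Pi.single (Sum.inr z) (1 : K))
  have hTB : ∀ z, T (Pi.single z 1) = B z := by
    intro z
    show U.mkQ (E (Pi.single z 1)) = Submodule.Quotient.mk (Pi.single (Sum.inr z) (1 : K))
    rw [Submodule.mkQ_apply]
    congr 1
    funext y
    rcases y with y | y
    · show (0 : K) = _
      rw [Pi.single_eq_of_ne Sum.inl_ne_inr]
    · show (Pi.single z (1 : K) : β → K) y = _
      by_cases h : y = z
      · subst h; simp
      · have h' : (Sum.inr y : α ⊕ β) ≠ Sum.inr z := fun hh => h (Sum.inr_injective hh)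
        rw [Pi.single_eq_of_ne h, Pi.single_eq_of_ne h']
  have hrange : LinearMap.range T = Submodule.span K (Set.range B) := by
    rw [LinearMap.range_eq_map, ← (Pi.basisFun K β).span_eq, Submodule.map_span,
      ← Set.range_comp]
    congr 1
    ext y
    simp only [Set.mem_range, Function.comp_apply, Pi.basisFun_apply, hTB]
  obtain ⟨κ, a, ha, hspan, hli⟩ := exists_linearIndependent' K B
  have : Finite κ := Finite.of_injective a ha
  have : Fintype κ := Fintype.ofFinite κ
  have hcard : Fintype.card κ = finrank K (LinearMap.range T) := by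
    rw [hrange, ← hspan]
    exact (finrank_span_eq_card hli).symm
  obtain ⟨y⟩ : Nonempty (Fin j ↪ κ) := by
    rw [Function.Embedding.nonempty_iff_card_le, Fintype.card_fin, hcard]
    exact hjT
  refine ⟨fun l => a (y l), ?_⟩
  have hli' : LinearIndependent K (B ∘ a ∘ y) := hli.comp y y.injective
  have hG' : LinearIndependent K (fun i : Fin c => (⟨G i, Submodule.subset_span ⟨i, rfl⟩⟩ : U)) := by
    refine LinearIndependent.of_comp U.subtype ?_
    exact hG
  have h1 := hG'.sumElim_of_quotient (fun l : Fin j => (Pi.single (Sum.inr (a (y l))) (1 : K) :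
    α ⊕ β → K)) hli'
  have h2 := h1.comp (Sum.swap : Fin j ⊕ Fin c → Fin c ⊕ Fin j)
    (Function.LeftInverse.injective Sum.swap_leftInverse)
  have h3 : (Sum.elim (fun l => Pi.single (Sum.inr (a (y l))) (1 : K)) G :
      Fin j ⊕ Fin c → (α ⊕ β → K)) =
      (Sum.elim (fun i => ((⟨G i, Submodule.subset_span ⟨i, rfl⟩⟩ : U) : α ⊕ β → K))
        (fun l => Pi.single (Sum.inr (a (y l))) (1 : K))) ∘ Sum.swap := by
    funext z
    rcases z with z | z <;> rfl
  rw [h3]
  exact h2

/-- **jets in the `β`-variables**: the projection of the tangent space has dimension `≥ j` -/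
theorem jets_inr {c ρ j : ℕ} (p : α ⊕ β → K) (Φ : Fin c → MvPolynomial (α ⊕ β) K)
    (hz : ∀ i, eval p (Φ i) = 0) (hind : LinearIndependent K fun i => grad p (Φ i))
    (hρ : ρ ≤ (Matrix.of fun (i : Fin c) (y : α) => eval p (pderiv (Sum.inl y) (Φ i))).rank)
    (hj : j + c = Fintype.card β + ρ) (k : ℕ) :
    (k + j).choose j ≤ finrank K (MvPolynomial β K ⧸
      (J p Φ (k + 1)).comap (rename (R := K) (Sum.inr : β → α ⊕ β))) := by
  classical
  obtain ⟨x, hx⟩ := exists_inr_indep (fun i => grad p (Φ i)) hind hρ hj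
  rw [← H930.finrank_restrictTotalDegree K j k]
  set f : MvPolynomial β K →ₐ[K] (MvPolynomial (α ⊕ β) K ⧸ J p Φ (k + 1)) :=
    (Ideal.Quotient.mkₐ K (J p Φ (k + 1))).comp (rename (R := K) (Sum.inr : β → α ⊕ β)) with hf
  have hker : (J p Φ (k + 1)).comap (rename (R := K) (Sum.inr : β → α ⊕ β)) =
      RingHom.ker f := by
    ext G
    rw [RingHom.mem_ker]
    change _ ↔ Ideal.Quotient.mk (J p Φ (k + 1)) (rename Sum.inr G) = 0
    rw [Ideal.Quotient.eq_zero_iff_mem]
    rfl
  rw [hker]
  have hfin : Module.Finite K (MvPolynomial (α ⊕ β) K ⧸ J p Φ (k + 1)) :=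
    H930.finite_quot_J p Φ hz hind (k + 1)
  have hfin2 : Module.Finite K (MvPolynomial β K ⧸ RingHom.ker f) :=
    Module.Finite.of_injective (Ideal.kerLiftAlg f).toLinearMap (Ideal.kerLiftAlg_injective f)
  let T : restrictTotalDegree (Fin j) K k →ₗ[K] (MvPolynomial β K ⧸ RingHom.ker f) :=
    ((Ideal.Quotient.mkₐ K (RingHom.ker f)).toLinearMap ∘ₗ
      (aeval fun l => (X (x l) - C (p (Sum.inr (x l))) : MvPolynomial β K)).toLinearMap) ∘ₗ
      (restrictTotalDegree (Fin j) K k).subtype
  have hT : Function.Injective T := by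
    rw [injective_iff_map_eq_zero]
    intro A hA
    apply Subtype.ext
    have h1 : aeval (fun l => (X (x l) - C (p (Sum.inr (x l))) : MvPolynomial β K)) A.1 ∈
        RingHom.ker f := Ideal.Quotient.eq_zero_iff_mem.1 hA
    rw [← hker] at h1
    have h2 : rename Sum.inr (aeval (fun l => (X (x l) - C (p (Sum.inr (x l))) :
        MvPolynomial β K)) A.1) = aeval (H192.zc p (fun l =>
          (Pi.single (Sum.inr (x l)) (1 : K) : α ⊕ β → K))) A.1 := by
      rw [← AlgHom.comp_apply, MvPolynomial.comp_aeval]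
      congr 2
      funext l
      rw [H192.zc_single p (fun l => Sum.inr (x l)) l]
      simp only [map_sub, rename_X, algHom_C, MvPolynomial.algebraMap_eq]
    have h3 : aeval (H192.zc p (fun l =>
        (Pi.single (Sum.inr (x l)) (1 : K) : α ⊕ β → K))) A.1 ∈ J p Φ (k + 1) := by
      rw [← h2]
      exact h1
    refine H395.aeval_zc_eq_zero p Φ hz _ hx ?_ h3
    intro d hd
    have h4 := (mem_restrictTotalDegree _ _ _).1 A.2
    have h5 := (le_totalDegree hd).trans h4
    rw [Nat.lt_succ_iff]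
    exact h5
  exact LinearMap.finrank_le_finrank_of_injective hT

/-- separated points with jets on a prime -/
theorem fd_jets {ι : Type*} (S : Finset ι) (y : ι → (β → K)) (q : Ideal (MvPolynomial β K))
    {N j : ℕ} (hsep : H455.Sep y N S)
    (hjet : ∀ i ∈ S, ∀ k, ∃ J : Ideal (MvPolynomial β K), H163.m (y i) ^ (k + 1) ≤ J ∧ q ≤ J ∧
      (k + j).choose j ≤ finrank K (MvPolynomial β K ⧸ J)) (k : ℕ) :
    S.card * (k + j).choose j ≤ hF q ((k + 1) * N + k) := by
  classical
  have hinj : Set.InjOn y S := by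
    intro a ha b hb hab
    by_contra hne
    obtain ⟨F, -, h2, h3⟩ := hsep a ha
    refine h2 ?_
    rw [hab]
    exact h3 b hb (Ne.symm hne)
  have hcard : (S.image y).card = S.card := Finset.card_image_of_injOn hinj
  have hjet' : ∀ r ∈ S.image y, ∃ J : Ideal (MvPolynomial β K), H163.m r ^ (k + 1) ≤ J ∧
      q ≤ J ∧ (k + j).choose j ≤ finrank K (MvPolynomial β K ⧸ J) := by
    intro r hr
    obtain ⟨i, hi, rfl⟩ := Finset.mem_image.1 hr
    exact hjet i hi k
  choose! J hJ using hjet'
  have h4 : rkY (S.image y) N * (k + j).choose j ≤ hF q ((k + 1) * N + k * 1) := by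
    have := (H580.isFilt_total (σ := β) (k := K)).lo (w₀ := 1)
      (fun i => by rw [mem_restrictTotalDegree]; exact (totalDegree_X i).le)
      q (S.image y) (fun r => J r) (T := N) (k := k) (e := j)
      (fun r hr => (hJ r hr).1) (fun r hr F hF _ => (hJ r hr).2.1 hF)
      (fun r hr => (hJ r hr).2.2)
    exact this
  rw [H701.rkY_image_of_sep hsep, hcard, mul_one] at h4
  exact h4

end jets

section count

/-- constant of the count -/
def Cv (a b : ℕ) : ℕ := Cu a b * 2 ^ a * (a.factorial * a.factorial)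

/-- **the count of the first end points** (vertical dimension `0`): `d` = levels of the base
equations, `ν` = dimension of the fibres of the base over the class of `s`, `j` = dimension of the
class of `s`. -/
theorem vcount {W D c₀ c₁ j ν ρ N : ℕ} (hW : 1 ≤ W) (hD : 1 ≤ D) {ι : Type*}
    (S : Finset ι) (x : ι → α ⊕ β → K)
    (Φ : Fin (c₀ + c₁) → MvPolynomial (α ⊕ β) K)
    (hz : ∀ i ∈ S, ∀ l, eval (x i) (Φ l) = 0)
    (hind : ∀ i ∈ S, LinearIndependent K (fun l => grad (x i) (Φ l)))
    (hρ : ∀ i ∈ S, ρ ≤ (Matrix.of fun (l : Fin (c₀ + c₁)) (y : α) =>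
      eval (x i) (pderiv (Sum.inl y) (Φ l))).rank)
    (d : Fin c₀ → ℕ) (hd1 : ∀ l, 1 ≤ d l)
    (hd : ∀ l, Φ (Fin.castAdd c₁ l) ∈ Vw K (wh α β W) (d l))
    (hd' : ∀ l, Φ (Fin.natAdd c₀ l) ∈ Vw K (wh α β W) (D * W))
    (hc₁ : c₁ = Fintype.card β) (hj : j + c₀ = ρ) (hν : ρ + ν = Fintype.card α)
    (hsep : H455.Sep (fun i z => x i (Sum.inr z)) N S)
    (hlow : ∀ i ∈ S, ∃ a₀ : ℕ, ∀ m M : ℕ, (M + ν).choose ν *
      hF ((germ (x i) Φ).comap (rename (R := K) (Sum.inr : β → α ⊕ β))) m ≤
        hilbF (Vw K (wh α β W)) (germ (x i) Φ) (M + m + a₀)) :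
    S.card ≤ Cv (Fintype.card α) (Fintype.card β) * D ^ c₁ * (∏ l, d l) * (N + 1) ^ j := by
  classical
  have hV := isFilt_wh (K := K) (α := α) (β := β) hW
  set a' := Fintype.card α with ha'
  set b' := Fintype.card β with hb'
  set pd : ℕ := ∏ l, d l with hpd
  obtain ⟨a, ha⟩ := H269.germs_additive hV (X_mem_wh hW) S x Φ hz hind
  set Q := S.image (fun i => germ (x i) Φ) with hQ
  -- a common `a₀`
  choose! a₁ ha₁ using hlow
  set a₂ := ∑ i ∈ S, a₁ i with ha₂
  have hlow : ∀ i ∈ S, ∀ m M : ℕ, (M + ν).choose ν *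
      hF ((germ (x i) Φ).comap (rename (R := K) (Sum.inr : β → α ⊕ β))) m ≤
        hilbF (Vw K (wh α β W)) (germ (x i) Φ) (M + m + a₂) := by
    intro i hi m M
    refine (ha₁ i hi m M).trans (hV.hilbF_mono _ ?_)
    have := Finset.single_le_sum (f := a₁) (fun _ _ => Nat.zero_le _) hi
    omega
  -- one class
  have hcls : ∀ q ∈ Q, ∀ k : ℕ, (S.filter fun i => germ (x i) Φ = q).card *
      ((k + j).choose j * (((k + 1) * (N + 1)) + ν).choose ν) ≤
        hilbF (Vw K (wh α β W)) q ((k + 1) * (2 * (N + 1)) + a₂) := by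
    intro q hq k
    obtain ⟨i₀, hi₀, rfl⟩ := Finset.mem_image.1 hq
    set Cl := S.filter fun i => germ (x i) Φ = germ (x i₀) Φ with hCl
    have hsub : Cl ⊆ S := Finset.filter_subset _ _
    have h1 := fd_jets Cl (fun i z => x i (Sum.inr z))
      ((germ (x i₀) Φ).comap (rename (R := K) (Sum.inr : β → α ⊕ β))) (N := N) (j := j)
      (fun i hi => by
        obtain ⟨F, h1, h2, h3⟩ := hsep i (hsub hi)
        exact ⟨F, h1, h2, fun i' hi' => h3 i' (hsub hi')⟩)
      (fun i hi k => by
        have hiS := hsub hi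
        have hgi : germ (x i) Φ = germ (x i₀) Φ := (Finset.mem_filter.1 hi).2
        refine ⟨(J (x i) Φ (k + 1)).comap (rename (R := K) (Sum.inr : β → α ⊕ β)), ?_, ?_,
          jets_inr (x i) Φ (hz i hiS) (hind i hiS) (hρ i hiS) (by omega) k⟩
        · have h1 : H163.m (fun z => x i (Sum.inr z)) ≤
              (H930.mx (x i)).comap (rename (R := K) (Sum.inr : β → α ⊕ β)) := by
            intro F hF
            rw [H163.mem_m] at hF
            rw [Ideal.mem_comap, H930.mem_mx, eval_rename]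
            exact hF
          refine ((Ideal.pow_right_mono h1 (k + 1)).trans (Ideal.le_comap_pow _ _)).trans ?_
          exact Ideal.comap_mono (H930.pow_le_J _ _ _)
        · rw [← hgi]
          exact Ideal.comap_mono (H930.germ_le_J _ _ _)) k
    have h2 : (k + 1) * N + k ≤ (k + 1) * (N + 1) := by nlinarith
    have h3 : Cl.card * (k + j).choose j ≤
        hF ((germ (x i₀) Φ).comap (rename (R := K) (Sum.inr : β → α ⊕ β)))
          ((k + 1) * (N + 1)) :=
      h1.trans ((H580.isFilt_total (σ := β) (k := K)).hilbF_mono _ h2)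
    have h4 := hlow i₀ hi₀ ((k + 1) * (N + 1)) ((k + 1) * (N + 1))
    calc Cl.card * ((k + j).choose j * (((k + 1) * (N + 1)) + ν).choose ν)
        = (((k + 1) * (N + 1)) + ν).choose ν * (Cl.card * (k + j).choose j) := by ring
      _ ≤ (((k + 1) * (N + 1)) + ν).choose ν *
          hF ((germ (x i₀) Φ).comap (rename (R := K) (Sum.inr : β → α ⊕ β)))
            ((k + 1) * (N + 1)) := Nat.mul_le_mul_left _ h3
      _ ≤ _ := h4
      _ = _ := by congr 1; ring
  -- the sum over the classes
  have key : ∀ k : ℕ, (S.card * (N + 1) ^ ν) * (k + 1) ^ (j + ν) ≤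
      (j.factorial * ν.factorial * (Cu a' b' * D ^ c₁ * pd)) *
        ((k + 1) * (2 * (N + 1)) + (a₂ + a + W)) ^ (j + ν) := by
    intro k
    have hjf : (k + 1) ^ j ≤ j.factorial * (k + j).choose j := by
      rw [← Nat.ascFactorial_eq_factorial_mul_choose]
      exact Nat.pow_succ_le_ascFactorial _ _
    have hνf : ((k + 1) * (N + 1)) ^ ν ≤ ν.factorial *
        (((k + 1) * (N + 1)) + ν).choose ν := by
      rw [← Nat.ascFactorial_eq_factorial_mul_choose]
      exact (Nat.pow_le_pow_left (Nat.le_succ _) _).trans (Nat.pow_succ_le_ascFactorial _ _)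
    have h1 : S.card * ((k + j).choose j * (((k + 1) * (N + 1)) + ν).choose ν) ≤
        hilbF (Vw K (wh α β W)) (⨅ i ∈ S, germ (x i) Φ)
          ((k + 1) * (2 * (N + 1)) + a₂ + a) := by
      refine le_trans ?_ (ha _)
      rw [Finset.card_eq_sum_card_image (fun i => germ (x i) Φ) S, Finset.sum_mul]
      exact Finset.sum_le_sum fun q hq => hcls q hq k
    have h2 := hat_up hW hD S x Φ hz hind d hd1 hd hd' (s := j + ν) (v := 0) (by omega)
      (by omega) ((k + 1) * (2 * (N + 1)) + a₂ + a)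
    rw [pow_zero, one_mul, add_zero] at h2
    calc (S.card * (N + 1) ^ ν) * (k + 1) ^ (j + ν)
        = S.card * ((k + 1) ^ j * ((k + 1) * (N + 1)) ^ ν) := by
          rw [pow_add, mul_pow (k + 1) (N + 1)]; ring
      _ ≤ S.card * ((j.factorial * (k + j).choose j) *
          (ν.factorial * (((k + 1) * (N + 1)) + ν).choose ν)) := by gcongr
      _ = j.factorial * ν.factorial *
          (S.card * ((k + j).choose j * (((k + 1) * (N + 1)) + ν).choose ν)) := by ring
      _ ≤ j.factorial * ν.factorial * (Cu a' b' * D ^ c₁ * pd *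
          ((k + 1) * (2 * (N + 1)) + a₂ + a + W) ^ (j + ν)) :=
          Nat.mul_le_mul_left _ (h1.trans h2)
      _ = _ := by
          rw [← mul_assoc, show (k + 1) * (2 * (N + 1)) + a₂ + a + W =
            (k + 1) * (2 * (N + 1)) + (a₂ + a + W) by ring]
  have h1 := H269.lim_pow key
  have h2 : S.card * (N + 1) ^ ν ≤
      (j.factorial * ν.factorial * (Cu a' b' * D ^ c₁ * pd) * 2 ^ (j + ν) * (N + 1) ^ j) *
        (N + 1) ^ ν := by
    refine h1.trans (le_of_eq ?_)
    rw [mul_pow 2 (N + 1), pow_add (N + 1)]; ring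
  have h3 := Nat.le_of_mul_le_mul_right h2 (by positivity)
  refine h3.trans ?_
  have hja : j ≤ a' := by omega
  have hνa : ν ≤ a' := by omega
  have hjνa : j + ν ≤ a' := by omega
  have e1 := Nat.factorial_le hja
  have e2 := Nat.factorial_le hνa
  have e3 : 2 ^ (j + ν) ≤ 2 ^ a' := Nat.pow_le_pow_right (by norm_num) hjνa
  calc j.factorial * ν.factorial * (Cu a' b' * D ^ c₁ * pd) * 2 ^ (j + ν) * (N + 1) ^ j
      ≤ a'.factorial * a'.factorial * (Cu a' b' * D ^ c₁ * pd) * 2 ^ a' * (N + 1) ^ j := by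
        gcongr
    _ = _ := by unfold Cv; ring

open Classical in
/-- **the count by classes** (any vertical dimension): every class of first end points is small -/
theorem vcount_small {W D c₀ c₁ s v : ℕ} (hW : 1 ≤ W) (hD : 1 ≤ D) {ι : Type*}
    (S : Finset ι) (x : ι → α ⊕ β → K)
    (f : Fin c₀ → MvPolynomial α K) (Φ : Fin (c₀ + c₁) → MvPolynomial (α ⊕ β) K)
    (hleft : ∀ i, Φ (Fin.castAdd c₁ i) = rename Sum.inl (f i))
    (hz : ∀ i ∈ S, ∀ j, eval (x i) (Φ j) = 0)
    (hind : ∀ i ∈ S, LinearIndependent K (fun j => grad (x i) (Φ j)))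
    (hindf : ∀ i ∈ S, LinearIndependent K (fun j => grad (fun y => x i (Sum.inl y)) (f j)))
    (hindr : ∀ i ∈ S, LinearIndependent K
      (fun (j : Fin c₁) (z : β) => eval (x i) (pderiv (Sum.inr z) (Φ (Fin.natAdd c₀ j)))))
    (d : Fin c₀ → ℕ) (hd1 : ∀ j, 1 ≤ d j) (hd : ∀ j, (f j).totalDegree ≤ d j)
    (hd' : ∀ j, Φ (Fin.natAdd c₀ j) ∈ Vw K (wh α β W) (D * W))
    (hs : s + c₀ = Fintype.card α) (hv : v + c₁ = Fintype.card β) {g : ℕ}
    (hg : ∀ i ∈ S, (S.filter fun i' => germ (x i') Φ = germ (x i) Φ).card ≤ g) :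
    S.card ≤ Cq (Fintype.card α) (Fintype.card β) * D ^ c₁ * (∏ j, d j) * g := by
  have h1 := hat_card_classes hW hD S x f Φ hleft hz hind hindf hindr d hd1 hd hd' hs hv
  rw [Finset.card_eq_sum_card_image (fun i => germ (x i) Φ) S]
  calc ∑ q ∈ S.image (fun i => germ (x i) Φ), (S.filter fun i => germ (x i) Φ = q).card
      ≤ ∑ q ∈ S.image (fun i => germ (x i) Φ), g := by
        refine Finset.sum_le_sum fun q hq => ?_
        obtain ⟨i, hi, rfl⟩ := Finset.mem_image.1 hq
        exact hg i hi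
    _ = (S.image (fun i => germ (x i) Φ)).card * g := by rw [Finset.sum_const, smul_eq_mul]
    _ ≤ _ := Nat.mul_le_mul_right _ h1

end count

end Vale.Agent.P054.T3.H794
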