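import Vale.Agent.P054.T3.H794.HCount
import Vale.Agent.P054.T3.H955.HData

/-!
# P054 / T3, block V, part (5): the count of the first end points for `HData`

* `HData.c₀_le_rank` : `c₀ ≤ n + 1`;
* `HData.card_fst_le` : vertical dimension `0`:
  `#fst ≤ C * D^c₁ * ∏ T * (Ns + 1)^(n + 1 - c₀)`;
* `HData.card_fst_le_small` : any vertical dimension: `#fst ≤ C * D^c₁ * ∏ T * g`, `g` = bound for
  the number of first end points of one class.
-/

set_option autoImplicit false

namespace Vale.Agent.P054.T3.H955.HData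

open MvPolynomial Finset Module
open Vale.Agent.P054.T2 Vale.Agent.P054.T2.H686 Vale.Agent.P054.T2.SecC
open Vale.Agent.P054.T2.H580 (Vw hilbF rkF IsFilt wh)
open Vale.Agent.P054.T2.H930 (germ mx grad J Pt hatPt)
open Vale.Agent.P054.T2.H441 (hF rkY)
open Vale.Agent.P054.T2.H455 (xh Sep)
open Vale.Agent.P054.T3.H794

variable {n : ℕ} {E0 E1 E2 : Finset (ZZ n × ZZ n)} {W D N c₀ c₁ : ℕ}
  (H : HData n E0 E1 E2 (wh (Crd n) (Pt n) W) N c₀ c₁)

theorem card_Crd (n : ℕ) : Fintype.card (Crd n) = 2 * n + 1 := by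
  simp only [Fintype.card_sum, Fintype.card_fin, Fintype.card_unit]; omega

theorem card_Pt (n : ℕ) : Fintype.card (Pt n) = 2 * n + 2 := by
  simp only [Fintype.card_sum, Fintype.card_fin]; omega

include H in
/-- at most `n + 1` equations of the base -/
theorem c₀_le_rank (hne : E2.Nonempty) : c₀ ≤ n + 1 := by
  classical
  obtain ⟨e, he⟩ := hne
  refine le_trans ?_ (H.rank_MZ_le (H.sub' he))
  have h1 := H.f_ind e he
  -- the rows of the base equations
  have h2 : LinearIndependent ℝ ((H.MZ e).submatrix (Fin.castAdd c₁) id).row := by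
    have h3 : ((H.MZ e).submatrix (Fin.castAdd c₁) id).row =
        fun i => grad (meet e.1 e.2) (H.f i) := by
      funext i j
      show eval (xh e) (pderiv (Sum.inl j) (H.phi (Fin.castAdd c₁ i))) =
        eval (meet e.1 e.2) (pderiv j (H.f i))
      rw [H.phi_left, pderiv_rename Sum.inl_injective, eval_rename]
      rfl
    rw [h3]
    exact h1
  have h3 := h2.rank_matrix
  rw [Fintype.card_fin] at h3
  have h4 : ((H.MZ e).submatrix (Fin.castAdd c₁) id).rank ≤ (H.MZ e).rank := by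
    exact Matrix.rank_submatrix_le _ _ _
  omega

include H in
/-- **the count, vertical dimension `0`** -/
theorem card_fst_le (hW : 1 ≤ W) (hD : 1 ≤ D) (hc₁ : c₁ = 2 * n + 2)
    (hh : ∀ j, H.h j ∈ Vw ℝ (wh (Crd n) (Pt n) W) (D * W))
    (T : Fin c₀ → ℕ) (hT1 : ∀ j, 1 ≤ T j) (hT : ∀ j, (H.f j).totalDegree ≤ T j)
    {Ns : ℕ} (hsep : Sep (pt (n := n)) Ns (E2.image Prod.fst))
    (hlow : ∀ e ∈ E2, ∃ a₀ : ℕ, ∀ m M : ℕ, (M + n).choose n * hF (H.Ps e) m ≤
      hilbF (Vw ℝ (wh (Crd n) (Pt n) W)) (H.P e) (M + m + a₀)) :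
    (E2.image Prod.fst).card ≤
      Cv (2 * n + 1) (2 * n + 2) * D ^ (2 * n + 2) * (∏ j, T j) * (Ns + 1) ^ (n + 1 - c₀) := by
  classical
  rcases E2.eq_empty_or_nonempty with h0 | hne
  · subst h0
    simp
  have hc₀ := H.c₀_le_rank hne
  set S := E2.image Prod.fst with hS
  have hex : ∀ s ∈ S, ∃ e ∈ E2, e.1 = s := fun s hs => by
    obtain ⟨e, he, h⟩ := Finset.mem_image.1 hs
    exact ⟨e, he, h⟩
  choose! g hg using hex
  have key := vcount (K := ℝ) (α := Crd n) (β := Pt n) (W := W) (D := D) (c₀ := c₀) (c₁ := c₁)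
    (j := n + 1 - c₀) (ν := n) (ρ := n + 1) (N := Ns) hW hD S (fun s => xh (g s)) H.phi
    (fun s hs l => H.phi_zero (H.mem0 (hg s hs).1) l)
    (fun s hs => H.phi_ind (hg s hs).1)
    (fun s hs => H.rank_MZ_ge (hg s hs).1)
    T hT1
    (fun l => by
      rw [H.phi_left]
      exact H580.rename_mem_Vw_of_total _ Sum.inl (fun i => rfl)
        ((mem_restrictTotalDegree _ _ _).2 (hT l)))
    (fun l => by rw [H.phi_right]; exact hh l)
    (by rw [card_Pt]; exact hc₁) (by omega) (by rw [card_Crd]; omega)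
    (by
      have hx : ∀ s ∈ S, (fun z => xh (g s) (Sum.inr z)) = pt s := by
        intro s hs
        have h1 : (fun z => xh (g s) (Sum.inr z)) = pt (g s).1 := rfl
        rw [h1, (hg s hs).2]
      intro s hs
      obtain ⟨F, h1, h2, h3⟩ := hsep s hs
      refine ⟨F, h1, ?_, ?_⟩
      · show eval (fun z => xh (g s) (Sum.inr z)) F ≠ 0
        rw [hx s hs]; exact h2
      · intro s' hs' hne
        show eval (fun z => xh (g s') (Sum.inr z)) F = 0
        rw [hx s' hs']
        exact h3 s' hs' hne)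
    (fun s hs => hlow (g s) (hg s hs).1)
  rw [card_Crd, card_Pt, hc₁] at key
  exact key

include H in
/-- **the count by classes**, any vertical dimension -/
theorem card_fst_le_small (hW : 1 ≤ W) (hD : 1 ≤ D) (hc₁ : c₁ ≤ 2 * n + 2)
    (hh : ∀ j, H.h j ∈ Vw ℝ (wh (Crd n) (Pt n) W) (D * W))
    (T : Fin c₀ → ℕ) (hT1 : ∀ j, 1 ≤ T j) (hT : ∀ j, (H.f j).totalDegree ≤ T j)
    {g : ℕ} (hcls : ∀ e ∈ E2, ∀ S ⊆ E2, (∀ e' ∈ S, H.P e' = H.P e) →
      (S.image Prod.fst).card ≤ g) :
    (E2.image Prod.fst).card ≤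
      Cq (2 * n + 1) (2 * n + 2) * D ^ c₁ * (∏ j, T j) * g := by
  classical
  rcases E2.eq_empty_or_nonempty with h0 | hne
  · subst h0
    simp
  have hc₀ := H.c₀_le_rank hne
  set S := E2.image Prod.fst with hS
  have hex : ∀ s ∈ S, ∃ e ∈ E2, e.1 = s := fun s hs => by
    obtain ⟨e, he, h⟩ := Finset.mem_image.1 hs
    exact ⟨e, he, h⟩
  choose! q hq using hex
  have key := vcount_small (K := ℝ) (α := Crd n) (β := Pt n) (W := W) (D := D) (c₀ := c₀)
    (c₁ := c₁) (s := 2 * n + 1 - c₀) (v := 2 * n + 2 - c₁) hW hD S (fun s => xh (q s)) H.f H.phi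
    H.phi_left
    (fun s hs l => H.phi_zero (H.mem0 (hq s hs).1) l)
    (fun s hs => H.phi_ind (hq s hs).1)
    (fun s hs => H.f_ind (q s) (hq s hs).1)
    (fun s hs => by
      have h1 := H.h_ind (q s) (hq s hs).1
      have h2 : (fun (j : Fin c₁) (z : Pt n) => eval (xh (q s)) (pderiv (Sum.inr z)
          (H.phi (Fin.natAdd c₀ j)))) = fun i => fun b =>
          eval (hatPt (q s).1 (mu (q s).1 (q s).2)) (pderiv (Sum.inr b) (H.h i)) := by
        funext i b
        rw [H.phi_right]
        rfl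
      rw [h2]
      exact h1)
    T hT1 hT (fun l => by rw [H.phi_right]; exact hh l)
    (by rw [card_Crd]; omega) (by rw [card_Pt]; omega) (g := g)
    (by
      intro s hs
      have h1 := hcls (q s) (hq s hs).1
        ((S.filter fun s' => germ (xh (q s')) H.phi = germ (xh (q s)) H.phi).image q)
        (by
          intro e he
          obtain ⟨s', hs', rfl⟩ := Finset.mem_image.1 he
          exact (hq s' (Finset.mem_filter.1 hs').1).1)
        (by
          intro e he
          obtain ⟨s', hs', rfl⟩ := Finset.mem_image.1 he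
          exact (Finset.mem_filter.1 hs').2)
      refine le_trans (le_of_eq ?_) h1
      rw [Finset.image_image]
      symm
      rw [Finset.card_image_of_injOn]
      intro s₁ hs₁ s₂ hs₂ h12
      have e1 := (hq s₁ (Finset.mem_filter.1 hs₁).1).2
      have e2 := (hq s₂ (Finset.mem_filter.1 hs₂).1).2
      have h12' : (q s₁).1 = (q s₂).1 := h12
      rw [← e1, ← e2, h12'])
  rw [card_Crd, card_Pt] at key
  exact key

end Vale.Agent.P054.T3.H955.HData
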